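import Vale.Agent.N336.Log

namespace Vale.Agent.Results.P336.A0DepthLog

open Vale.Agent.N336

/-- There is one language `L`, decided by a deterministic polynomial time Turing machine, whose
membership functions `f_n`, and their complements, need `2 ^ (c √(n log n))` gates in depth-three
OR-AND-OR circuits for all large `n`; in particular `2 ^ (C √n)` gates, and
`2 ^ (C √(n log n / log log n))` gates, for every constant `C` and all large `n`. -/
theorem result :
    ∃ (L : List Bool → Bool)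
      (M : Turing.TM2ComputableInPolyTime (fun w : List Bool => w) (fun c : Bool => [c]) L),
      (∀ k, Finite (M.tm.Γ k)) ∧
      (∃ c : ℝ, 0 < c ∧ ∃ n₀ : ℕ, ∀ n : ℕ, n₀ ≤ n →
        (2 : ℝ) ^ (c * Real.sqrt (n * Real.log n)) ≤
            (S3 (fun x : Fin n → Bool => L (List.ofFn x)) : ℝ) ∧
        (2 : ℝ) ^ (c * Real.sqrt (n * Real.log n)) ≤
            (S3 (fun x : Fin n → Bool => !L (List.ofFn x)) : ℝ)) ∧
      (∀ C : ℝ, ∃ n₀ : ℕ, ∀ n : ℕ, n₀ ≤ n →
        (2 : ℝ) ^ (C * Real.sqrt n) ≤ (S3 (fun x : Fin n → Bool => L (List.ofFn x)) : ℝ) ∧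
        (2 : ℝ) ^ (C * Real.sqrt n) ≤ (S3 (fun x : Fin n → Bool => !L (List.ofFn x)) : ℝ)) ∧
      (∀ C : ℝ, ∃ n₀ : ℕ, ∀ n : ℕ, n₀ ≤ n →
        (2 : ℝ) ^ (C * Real.sqrt (n * Real.log n / Real.log (Real.log n))) ≤
            (S3 (fun x : Fin n → Bool => L (List.ofFn x)) : ℝ) ∧
        (2 : ℝ) ^ (C * Real.sqrt (n * Real.log n / Real.log (Real.log n))) ≤
            (S3 (fun x : Fin n → Bool => !L (List.ofFn x)) : ℝ)) := by
  obtain ⟨M, hM⟩ := lang_tm
  refine ⟨lang, M, hM, ⟨1 / 25000, by norm_num, _, fun n hn => lang_log hn⟩, fun C => ?_,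
    fun C => ?_⟩
  · obtain ⟨n₁, hn₁⟩ := Filter.eventually_atTop.1
      (eventually_le_sqrt_log (c := 1 / 25000) (by norm_num) C)
    refine ⟨max n₁ (2 ^ 2 ^ 15), fun n hn => ?_⟩
    obtain ⟨g1, g2⟩ := lang_log (le_of_max_le_right hn)
    have e := Real.rpow_le_rpow_of_exponent_le one_le_two (hn₁ n (le_of_max_le_left hn)).1
    exact ⟨e.trans g1, e.trans g2⟩
  · obtain ⟨n₁, hn₁⟩ := Filter.eventually_atTop.1
      (eventually_le_sqrt_log (c := 1 / 25000) (by norm_num) C)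
    refine ⟨max n₁ (2 ^ 2 ^ 15), fun n hn => ?_⟩
    obtain ⟨g1, g2⟩ := lang_log (le_of_max_le_right hn)
    have e := Real.rpow_le_rpow_of_exponent_le one_le_two (hn₁ n (le_of_max_le_left hn)).2
    exact ⟨e.trans g1, e.trans g2⟩

end Vale.Agent.Results.P336.A0DepthLog
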