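import Vale.Agent.N336T.Main

namespace Vale.Agent.Results.P336.A0Threshold

open Vale.Agent.N336T

/-- There is one language `L`, decided by a deterministic polynomial time Turing machine, and a
constant `c > 0` such that for all large `n` the membership function `f_n` of `L` satisfies:
(1) a threshold gate on top of two layers of AND/OR gates computes `f_n` only if the number of
bottom gates plus its total weight is at least `2 ^ (c √(n log n))`;
(2) with bottom fan-in at most `k`, where `log³ n ≤ k ≤ c n`, the top fan-in (the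
total top weight) is at least `2 ^ (c n log k / k)`; (3) on a subcube of dimension at least
`n / 2`, an arbitrary top gate of fan-in at most `c √(n log n)` over two layers with at most
`2 ^ (c √(n log n))` bottom gates agrees with `f_n` on at most a fraction
`1/2 + 2 ^ (-c √(n log n))` of the points. -/
theorem result :
    ∃ (L : List Bool → Bool)
      (M : Turing.TM2ComputableInPolyTime (fun w : List Bool => w) (fun c : Bool => [c]) L),
      (∀ k, Finite (M.tm.Γ k)) ∧ ∃ c : ℝ, 0 < c ∧ ∃ n₀ : ℕ, ∀ n : ℕ, n₀ ≤ n →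
      (∀ (C : Layers n) (w : Fin C.nm → ℤ) (θ : ℤ),
        (∀ x, L (List.ofFn x) = true ↔ θ ≤ ∑ j, w j * ((C.out x j).toNat : ℤ)) →
        (2 : ℝ) ^ (c * Real.sqrt (n * Real.log n)) ≤ C.nb + ∑ j, |(w j : ℝ)|) ∧
      (∀ k : ℕ, Real.log n ^ 3 ≤ k → k ≤ c * n →
        ∀ C : Layers n, (∀ i, (C.bot i).card ≤ k) →
          (∀ (isAnd : Bool) (T : Finset (Fin C.nm)),
            (∀ x, L (List.ofFn x) = gate isAnd T (C.out x)) →
            (2 : ℝ) ^ (c * (n * Real.log k / k)) ≤ T.card) ∧
          ∀ (w : Fin C.nm → ℤ) (θ : ℤ),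
            (∀ x, L (List.ofFn x) = true ↔ θ ≤ ∑ j, w j * ((C.out x j).toNat : ℤ)) →
            (2 : ℝ) ^ (c * (n * Real.log k / k)) ≤ ∑ j, |(w j : ℝ)|) ∧
      ∃ (S : Finset (Fin n)) (a : Fin n → Bool), n ≤ 2 * S.card ∧
        ∀ C : Layers n, (C.nb : ℝ) ≤ (2 : ℝ) ^ (c * Real.sqrt (n * Real.log n)) →
          (C.nm : ℝ) ≤ c * Real.sqrt (n * Real.log n) →
          ∀ φ : (Fin C.nm → Bool) → Bool,
            ((Finset.univ.filter fun x : Fin n → Bool =>
                (∀ i ∉ S, x i = a i) ∧ φ (C.out x) = L (List.ofFn x)).card : ℝ) ≤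
              (1 / 2 + (2 : ℝ) ^ (-(c * Real.sqrt (n * Real.log n)))) * 2 ^ S.card := by
  obtain ⟨M, hM⟩ := Vale.Agent.N336.lang_tm
  obtain ⟨n₀, hn₀⟩ := Filter.eventually_atTop.1 eventually_large
  refine ⟨Vale.Agent.N336.lang, M, hM, 1 / 240000000, by norm_num, n₀, fun n hn => ?_⟩
  obtain ⟨h1, h2⟩ := hn₀ n hn
  refine ⟨thr_bound h1 h2, fun k g1 g2 C hC => ?_, avg_bound h1 h2⟩
  · have g3 : 2000000 * k ≤ n := by
      have h0 : (0 : ℝ) ≤ k := Nat.cast_nonneg _
      have : (2000000 : ℝ) * k ≤ n := by linarith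
      exact_mod_cast this
    have key : ∀ (w : Fin C.nm → ℤ) (θ : ℤ), (∀ x, Vale.Agent.N336.lang (List.ofFn x) = true ↔
        θ ≤ ∑ j, w j * ((C.out x j).toNat : ℤ)) →
        (2 : ℝ) ^ ((1 / 240000000 : ℝ) * (n * Real.log k / k)) ≤ ∑ j, |(w j : ℝ)| := by
      intro w θ hf
      refine le_trans (Real.rpow_le_rpow_of_exponent_le one_le_two ?_)
        (width_bound h1 g1 g3 C hC w θ hf)
      have h0 : 0 ≤ n * Real.log k / k := by
        have := Real.log_natCast_nonneg k
        positivity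
      rw [mul_comm (15000000 : ℝ), ← div_div]
      linarith
    refine ⟨fun t T hf => ?_, key⟩
    obtain ⟨w, θ, e1, e2⟩ := gate_thr t T
    exact e1 ▸ key w θ fun x => by rw [hf x, e2]

end Vale.Agent.Results.P336.A0Threshold
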